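import Vale.Agent.P352W.Cn.Inv
import Vale.Agent.P352W.Al.Cut
import Mathlib.Analysis.Distribution.SchwartzSpace.Fourier

/-! # P352W CN: the rules of the Fourier transform `ft` (light: no part of the P352 library) -/

set_option linter.all false

open Set Filter Topology MeasureTheory
open scoped ContDiff SchwartzMap ComplexConjugate FourierTransform Real LineDeriv
  RealInnerProductSpace
open Complex (I exp)

namespace Vale.Agent.P352W.Ft

open Vale.Agent.P352.GF Vale.Agent.P352W.Cn

noncomputable section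

variable {f g : Fn} {s : ℝ} {L : Ix → V}

/-! ### the Minkowski product -/

theorem eta_sqC (m : Ix) : (eta m : ℂ) * eta m = 1 := by exact_mod_cast eta_sq m
theorem md_comm (x y : V) : mdot x y = mdot y x := by simp only [mdot_eq, mul_comm]
theorem md_add (x y z : V) : mdot x (y + z) = mdot x y + mdot x z := by
  simp only [mdot, Pi.add_apply, mul_add, Finset.sum_add_distrib]
theorem md_add_l (x y z : V) : mdot (x + y) z = mdot x z + mdot y z := by
  rw [md_comm, md_add, md_comm z, md_comm z]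
theorem md_smul (c : ℝ) (x y : V) : mdot x (c • y) = c * mdot x y := by
  simp only [mdot, Pi.smul_apply, smul_eq_mul, Finset.mul_sum]
  exact Finset.sum_congr rfl fun _ _ => by ring
theorem md_smul_l (c : ℝ) (x y : V) : mdot (c • x) y = c * mdot x y := by
  rw [md_comm, md_smul, md_comm]
theorem md_neg (x y : V) : mdot x (-y) = -mdot x y := by
  rw [← neg_one_smul ℝ y, md_smul, neg_one_mul]
theorem md_neg_l (x y : V) : mdot (-x) y = -mdot x y := by rw [md_comm, md_neg, md_comm]
theorem md_sub (x y z : V) : mdot x (y - z) = mdot x y - mdot x z := by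
  rw [sub_eq_add_neg, md_add, md_neg, sub_eq_add_neg]
theorem md_sub_l (x y z : V) : mdot (x - y) z = mdot x z - mdot y z := by
  rw [md_comm, md_sub, md_comm z, md_comm z]
theorem md_zero (x : V) : mdot x 0 = 0 := by simp [mdot]
theorem md_zero_l (x : V) : mdot 0 x = 0 := by simp [mdot]
theorem md_bas (p : V) (m : Ix) : mdot p (bas m 1) = eta m * p m := by simp [mdot, bas]

/-- the Minkowski product as a continuous bilinear map -/
def mdL : V →L[ℝ] V →L[ℝ] ℝ :=
  LinearMap.toContinuousLinearMap <| LinearMap.toContinuousLinearMap.toLinearMap ∘ₗ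
    LinearMap.mk₂ ℝ mdot md_add_l md_smul_l md_add md_smul

@[simp] theorem mdL_apply (x y : V) : mdL x y = mdot x y := rfl

/-- the linear part of a similitude -/
def lin (s : ℝ) (L : Ix → V) : V →L[ℝ] V :=
  LinearMap.toContinuousLinearMap (Matrix.toLin' (s • (Matrix.of L).transpose))

theorem lin_apply (s : ℝ) (L : Ix → V) (x : V) : lin s L x = sim s L 0 x := by
  funext n
  simp [lin, sim, Matrix.mulVec, dotProduct, Finset.mul_sum, mul_comm, mul_left_comm]

theorem sim_eq (s : ℝ) (L : Ix → V) (a x : V) : sim s L a x = lin s L x + a := by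
  rw [lin_apply]; funext n; simp [sim, add_comm]

theorem sim_smul (s : ℝ) (L : Ix → V) (x : V) : sim s L 0 x = s • sim 1 L 0 x := by
  funext n; simp [sim]

theorem sim_one (a x : V) : sim 1 one a x = x + a := by
  funext n; simp [sim, one, bas, add_comm]

theorem md_sim (hL : IsLor L) (x y : V) : mdot (sim 1 L 0 x) (sim 1 L 0 y) = mdot x y := by
  have e : ∀ x : V, sim 1 L 0 x = ∑ m, x m • L m := fun x => by funext n; simp [sim]
  rw [e, e, ← mdL_apply]
  simp only [map_sum, map_smul, ContinuousLinearMap.sum_apply, ContinuousLinearMap.smul_apply,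
    mdL_apply, hL.1, smul_eq_mul]
  simp [mdot, bas, mul_comm, mul_left_comm]

theorem det_lin (hL : IsLor L) : LinearMap.det (lin s L : V →ₗ[ℝ] V) = s ^ 4 := by
  have h : Matrix.det (Matrix.of L) = 1 := hL.2.2
  simp [lin, Matrix.det_transpose, h]

/-- the linear part of a similitude, as an equivalence -/
def linE (hs : 0 < s) (hL : IsLor L) : V ≃L[ℝ] V :=
  (lin s L).toContinuousLinearEquivOfDetNeZero (by
    rw [ContinuousLinearMap.det, det_lin hL]; positivity)

theorem linE_apply (hs : 0 < s) (hL : IsLor L) (x : V) : linE hs hL x = sim s L 0 x :=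
  lin_apply s L x

theorem vol_sim (hs : 0 < s) (hL : IsLor L) (a : V) (F : Fn) :
    ∫ z, F (sim s L a z) = ((s ^ 4)⁻¹ : ℝ) * ∫ z, F z := by
  have h := Measure.map_linearMap_addHaar_eq_smul_addHaar (volume : Measure V)
    (f := (lin s L : V →ₗ[ℝ] V)) (by rw [det_lin hL]; positivity)
  have h2 := (linE hs hL).toHomeomorph.measurableEmbedding.integral_map
    (μ := volume) fun y => F (y + a)
  have e : ((linE hs hL).toHomeomorph : V → V) = (lin s L : V →ₗ[ℝ] V) := rfl
  rw [e, h, integral_smul_measure, integral_add_right_eq_self, det_lin hL,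
    ENNReal.toReal_ofReal (abs_nonneg _), abs_of_pos (by positivity), Complex.real_smul] at h2
  rw [h2]
  simp only [sim_eq]
  rfl

/-! ### test functions -/

theorem test_ev (g : Sch) : IsTest (ev g) := ⟨g, rfl⟩
theorem test_int (hf : IsTest f) : Integrable f := by obtain ⟨g, rfl⟩ := hf; exact g.integrable
theorem test_smooth (hf : IsTest f) : ContDiff ℝ ∞ f := by obtain ⟨g, rfl⟩ := hf; exact g.smooth ⊤
theorem test_cont (hf : IsTest f) : Continuous f := (test_smooth hf).continuous
theorem test_diff (hf : IsTest f) : Differentiable ℝ f := (test_smooth hf).differentiable (by simp)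
theorem test_bar (hf : IsTest f) : IsTest (bar f) := Al.test_bar hf
theorem test_zero : IsTest fun _ => 0 := ⟨0, rfl⟩
theorem test_add (hf : IsTest f) (hg : IsTest g) : IsTest fun z => f z + g z := by
  obtain ⟨f, rfl⟩ := hf; obtain ⟨g, rfl⟩ := hg; exact ⟨f + g, rfl⟩
theorem test_sub (hf : IsTest f) (hg : IsTest g) : IsTest fun z => f z - g z := by
  obtain ⟨f, rfl⟩ := hf; obtain ⟨g, rfl⟩ := hg; exact ⟨f - g, rfl⟩
theorem test_cmul (c : ℂ) (hf : IsTest f) : IsTest fun z => c * f z := by
  obtain ⟨f, rfl⟩ := hf; exact ⟨c • f, rfl⟩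
theorem test_sum {ι : Type*} (t : Finset ι) {F : ι → Fn} (h : ∀ i ∈ t, IsTest (F i)) :
    IsTest fun z => ∑ i ∈ t, F i z := by
  classical
  induction t using Finset.induction_on with
  | empty => exact test_zero
  | insert a t ha ih =>
    simp only [Finset.sum_insert ha]
    exact test_add (h a (Finset.mem_insert_self _ _)) (ih fun i hi => h i (Finset.mem_insert_of_mem hi))
theorem test_neg (hf : IsTest f) : IsTest fun z => f (-z) := by
  obtain ⟨g, rfl⟩ := hf
  exact ⟨SchwartzMap.compCLMOfContinuousLinearEquiv ℂ (ContinuousLinearEquiv.neg ℝ) g, rfl⟩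
theorem test_tsl (hf : IsTest f) (a : V) : IsTest fun z => f (z + a) := by
  obtain ⟨g, rfl⟩ := hf
  exact ⟨SchwartzMap.compSubConstCLM ℂ (-a) g, funext fun z => by simp [ev]⟩

/-- pull back along a similitude -/
def pb (hs : 0 < s) (hL : IsLor L) (a : V) : Sch →L[ℂ] Sch :=
  SchwartzMap.compCLMOfContinuousLinearEquiv ℂ (linE hs hL) ∘L SchwartzMap.compSubConstCLM ℂ (-a)

theorem ev_pb (hs : 0 < s) (hL : IsLor L) (a : V) (g : Sch) :
    ev (pb hs hL a g) = fun z => ev g (sim s L a z) := funext fun z => by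
  rw [sim_eq, lin_apply, ← linE_apply hs hL]
  simp [ev, pb]

theorem test_sim (hs : 0 < s) (hL : IsLor L) (a : V) (hf : IsTest f) :
    IsTest fun z => f (sim s L a z) := by
  obtain ⟨g, rfl⟩ := hf; exact ⟨_, ev_pb hs hL a g⟩
theorem test_mul {u : Fn} (hu : u.HasTemperateGrowth) (hf : IsTest f) :
    IsTest fun z => u z * f z := by
  obtain ⟨g, rfl⟩ := hf
  exact ⟨SchwartzMap.smulLeftCLM ℂ u g, funext fun z => SchwartzMap.smulLeftCLM_apply_apply hu g z⟩
theorem test_lin (l : V →L[ℝ] ℝ) (hf : IsTest f) : IsTest fun z => (l z : ℝ) * f z :=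
  test_mul (Complex.ofRealCLM ∘L l).hasTemperateGrowth hf
theorem test_x (m : Ix) (hf : IsTest f) : IsTest fun z => (z m : ℂ) * f z :=
  test_lin (ContinuousLinearMap.proj m) hf
theorem test_fd (hf : IsTest f) (h : V) : IsTest fun z => fderiv ℝ f z h := by
  obtain ⟨g, rfl⟩ := hf; exact ⟨∂_{h} g, rfl⟩
theorem test_of_compact (h1 : ContDiff ℝ ∞ f) (h2 : HasCompactSupport f) : IsTest f :=
  ⟨h2.toSchwartzMap h1, rfl⟩

theorem pd_at {x : V} (hf : DifferentiableAt ℝ f x) (m : Ix) : pd m f x = fderiv ℝ f x (bas m 1) := by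
  rw [← hf.lineDeriv_eq_fderiv, pd, lineDeriv]
  congr 2 with t
  congr 1 with n
  simp [bas]
theorem pd_test (hf : IsTest f) (m : Ix) : pd m f = fun x => fderiv ℝ f x (bas m 1) :=
  funext fun x => pd_at (test_diff hf x) m
theorem test_pd (hf : IsTest f) (m : Ix) : IsTest (pd m f) := pd_test hf m ▸ test_fd hf _
theorem tsupport_pd (hf : IsTest f) (m : Ix) : tsupport (pd m f) ⊆ tsupport f := by
  rw [pd_test hf]
  refine (closure_mono ?_).trans (tsupport_fderiv_subset ℝ (f := f))
  exact fun x hx h => hx (by simp only [h]; rfl)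
theorem bar_bar (f : Fn) : bar (bar f) = f := funext fun x => star_star _
theorem tsupport_bar (f : Fn) : tsupport (bar f) = tsupport f := by
  unfold tsupport; congr 1; ext x; simp [bar]

/-! ### rules -/

theorem norm_ex (t : ℝ) : ‖exp (I * t)‖ = 1 := by simp [Complex.norm_exp]

theorem int_ex (hf : Integrable f) (p : V) : Integrable fun z => f z * exp (I * mdot p z) :=
  hf.mul_bdd (c := 1) (Continuous.aestronglyMeasurable (by unfold mdot; fun_prop))
    (ae_of_all _ fun z => (norm_ex _).le)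

theorem ft_add' (hf : Integrable f) (hg : Integrable g) (p : V) :
    ft (fun z => f z + g z) p = ft f p + ft g p := by
  simp only [ft, add_mul, integral_add (int_ex hf p) (int_ex hg p)]
theorem ft_add (hf : IsTest f) (hg : IsTest g) (p : V) :
    ft (fun z => f z + g z) p = ft f p + ft g p := ft_add' (test_int hf) (test_int hg) p
theorem ft_sub (hf : IsTest f) (hg : IsTest g) (p : V) :
    ft (fun z => f z - g z) p = ft f p - ft g p := by
  simp only [ft, sub_mul, integral_sub (int_ex (test_int hf) p) (int_ex (test_int hg) p)]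
theorem ft_mul (a : ℂ) (f : Fn) (p : V) : ft (fun z => a * f z) p = a * ft f p := by
  simp only [ft, mul_assoc, integral_const_mul]
/-- the shape of `Theory.lin` -/
theorem ft_lin (hf : IsTest f) (hg : IsTest g) (c : ℂ) (p : V) :
    ft (fun z => f z + c * g z) p = ft f p + c * ft g p := by
  rw [ft_add hf (test_cmul c hg), ft_mul]
theorem ft_neg (f : Fn) (p : V) : ft (fun z => -f z) p = -ft f p := by
  simp only [ft, neg_mul, integral_neg]
theorem ft_zero (p : V) : ft (fun _ => 0) p = 0 := by simp [ft]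
theorem ft_sum {ι : Type*} (t : Finset ι) {F : ι → Fn} (h : ∀ i ∈ t, IsTest (F i)) (p : V) :
    ft (fun z => ∑ i ∈ t, F i z) p = ∑ i ∈ t, ft (F i) p := by
  simp only [ft, Finset.sum_mul]
  exact integral_finsetSum _ fun i hi => int_ex (test_int (h i hi)) p
theorem ft_at_zero (f : Fn) : ft f 0 = ∫ z, f z := by simp [ft, md_zero_l]
theorem norm_ft_le (f : Fn) (p : V) : ‖ft f p‖ ≤ ∫ z, ‖f z‖ :=
  (norm_integral_le_integral_norm _).trans_eq (by simp only [norm_mul, norm_ex, mul_one])
theorem ft_bar (f : Fn) (p : V) : ft (bar f) p = conj (ft f (-p)) := by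
  rw [ft, ft, ← integral_conj]
  refine integral_congr_ae (ae_of_all _ fun z => ?_)
  simp [bar, ← Complex.exp_conj, md_neg_l]
theorem ft_bar' (f : Fn) (p : V) : ft (bar f) (-p) = conj (ft f p) := by rw [ft_bar, neg_neg]
theorem ft_mdl (f : Fn) (q p : V) : ft (fun z => exp (I * mdot q z) * f z) p = ft f (p + q) := by
  refine integral_congr_ae (ae_of_all _ fun z => ?_)
  simp only [md_add_l, Complex.ofReal_add, mul_add, Complex.exp_add]
  ring

/-- similitudes, at the momentum `p`: `q = L p / s`. -/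
theorem ft_sim' (hs : 0 < s) (hL : IsLor L) (f : Fn) (a p : V) :
    ft (fun z => f (sim s L a z)) p = ((s ^ 4)⁻¹ : ℝ) *
      exp (-(I * mdot (sim s⁻¹ L 0 p) a)) * ft f (sim s⁻¹ L 0 p) := by
  have h := vol_sim hs hL a fun y => f y * exp (I * mdot (sim s⁻¹ L 0 p) y)
  rw [mul_right_comm, ft, ft, ← h, ← integral_mul_const]
  refine integral_congr_ae (ae_of_all _ fun z => ?_)
  have e : mdot (sim s⁻¹ L 0 p) (sim s L a z) = mdot p z + mdot (sim s⁻¹ L 0 p) a := by
    rw [sim_eq s, md_add, lin_apply, sim_smul s, sim_smul s⁻¹, md_smul, md_smul_l, md_sim hL,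
      ← mul_assoc, mul_inv_cancel₀ hs.ne', one_mul]
  simp only [e, Complex.ofReal_add, mul_add, Complex.exp_add, mul_assoc, ← Complex.exp_add,
    add_neg_cancel_right]
theorem ft_sim (hs : 0 < s) (hL : IsLor L) (f : Fn) (a p : V) :
    ft (fun z => f (sim s L a z)) (s • p) =
      ((s ^ 4)⁻¹ : ℝ) * exp (-(I * mdot (sim 1 L 0 p) a)) * ft f (sim 1 L 0 p) := by
  have e : sim s⁻¹ L 0 (s • p) = sim 1 L 0 p := by
    rw [sim_smul, ← lin_apply, map_smul, smul_smul, inv_mul_cancel₀ hs.ne', one_smul, lin_apply]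
  rw [ft_sim' hs hL, e]
theorem ft_tsl (f : Fn) (a p : V) :
    ft (fun z => f (z + a)) p = exp (-(I * mdot p a)) * ft f p := by
  rw [ft, ft, ← integral_add_right_eq_self (fun y => f y * exp (I * mdot p y)) a,
    ← integral_const_mul]
  refine integral_congr_ae (ae_of_all _ fun z => ?_)
  simp only [md_add, Complex.ofReal_add, mul_add]
  rw [mul_left_comm, ← Complex.exp_add]
  congr 2; ring
theorem ft_tsl' (f : Fn) (a p : V) : ft (fun z => f (z - a)) p = exp (I * mdot p a) * ft f p := by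
  simpa [sub_eq_add_neg, md_neg] using ft_tsl f (-a) p
theorem ft_refl (f : Fn) (p : V) : ft (fun z => f (-z)) p = ft f (-p) := by
  rw [ft, ft, ← integral_neg_eq_self]
  simp only [neg_neg, md_neg, md_neg_l]

theorem ft_eq (f : Fn) :
    ft f = VectorFourier.fourierIntegral 𝐞 volume ((-(2 * π)⁻¹) • mdL.flip).toLinearMap₁₂ f := by
  funext p
  rw [Real.vector_fourierIntegral_eq_integral_exp_smul]
  refine integral_congr_ae (ae_of_all _ fun z => ?_)
  simp only [smul_eq_mul, mul_comm (f z)]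
  congr 2
  rw [mul_comm I]
  congr 2
  simp [Real.pi_ne_zero]; field_simp

theorem continuous_ft (hf : Integrable f) : Continuous (ft f) := by
  rw [ft_eq]
  exact VectorFourier.fourierIntegral_continuous Real.continuous_fourierChar
    ((-(2 * π)⁻¹) • mdL.flip).continuous₂ hf

theorem ft_fderiv (hf : Integrable f) (hd : Differentiable ℝ f) (hf' : Integrable (fderiv ℝ f))
    (y p : V) : ft (fun z => fderiv ℝ f z y) p = -(I * mdot p y) * ft f p := by
  rw [ft_eq, ft_eq, ← Real.fourierIntegral_continuousLinearMap_apply' hf',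
    VectorFourier.fourierIntegral_fderiv _ hf hd hf']
  simp
  have : (π : ℂ) ≠ 0 := by simp
  field_simp
theorem ft_fd (hf : IsTest f) (y p : V) :
    ft (fun z => fderiv ℝ f z y) p = -(I * mdot p y) * ft f p := by
  obtain ⟨g, rfl⟩ := hf
  exact ft_fderiv g.integrable g.differentiable (SchwartzMap.fderivCLM ℝ V ℂ g).integrable y p
theorem ft_pd (hf : IsTest f) (m : Ix) (p : V) :
    ft (pd m f) p = -(I * (eta m * p m : ℝ)) * ft f p := by rw [pd_test hf, ft_fd hf, md_bas]

theorem fderiv_ft (hf : IsTest f) (p h : V) :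
    fderiv ℝ (ft f) p h = I * ft (fun z => (mdot h z : ℝ) * f z) p := by
  obtain ⟨g, rfl⟩ := hf
  have hf : Integrable (ev g) := g.integrable
  have hf' : Integrable fun z => ‖z‖ * ‖ev g z‖ := by simpa [ev] using g.integrable_pow_mul volume 1
  have i : Integrable (VectorFourier.fourierSMulRight ((-(2 * π)⁻¹) • mdL.flip) (ev g)) :=
    (hf'.const_mul (2 * π * ‖(-(2 * π)⁻¹) • mdL.flip‖)).mono' hf.1.fourierSMulRight
      (ae_of_all _ fun z => by
        simpa only [mul_assoc] using VectorFourier.norm_fourierSMulRight_le _ (ev g) z)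
  rw [← ft_mul, ft_eq, ft_eq, VectorFourier.fderiv_fourierIntegral _ hf hf',
    Real.fourierIntegral_continuousLinearMap_apply' i]
  congr 1
  funext z
  simp
  have : (π : ℂ) ≠ 0 := by simp
  field_simp

theorem ft_swap (hf : Integrable f) (hg : Integrable g) :
    ∫ p, ft f p * g p = ∫ z, f z * ft g z := by
  have := VectorFourier.integral_fourierIntegral_smul_eq_flip (e := 𝐞) (μ := volume) (ν := volume)
    (L := ((-(2 * π)⁻¹) • mdL.flip).toLinearMap₁₂) Real.continuous_fourierChar
    ((-(2 * π)⁻¹) • mdL.flip).continuous₂ hf hg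
  rwa [show ((-(2 * π)⁻¹) • mdL.flip).toLinearMap₁₂.flip =
      ((-(2 * π)⁻¹) • mdL.flip).toLinearMap₁₂ by
    refine LinearMap.ext fun x => LinearMap.ext fun y => ?_
    simp [md_comm x y], ← ft_eq, ← ft_eq] at this

/-! ### the transform on Schwartz space -/

abbrev E4 := EuclideanSpace ℝ (Fin 4)

def e4 : V ≃L[ℝ] E4 := (EuclideanSpace.equiv (Fin 4) ℝ).symm

def tau : V ≃L[ℝ] E4 := (LinearEquiv.toContinuousLinearEquiv
  { toFun := fun p m => -(2 * π)⁻¹ * (eta m * p m)
    invFun := fun p m => -(2 * π) * (eta m * p m)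
    map_add' := fun x y => by funext m; simp only [Pi.add_apply]; ring
    map_smul' := fun c x => by funext m; simp only [Pi.smul_apply, smul_eq_mul, RingHom.id_apply]; ring
    left_inv := fun p => by
      funext m
      have := eta_sq m
      have := Real.pi_ne_zero
      field_simp
      rw [sq, eta_sq, one_mul]
    right_inv := fun p => by
      funext m
      have := Real.pi_ne_zero
      field_simp
      rw [sq, eta_sq, one_mul] } : V ≃L[ℝ] V).trans e4

theorem tau_apply (p : V) (m : Ix) : tau p m = -(2 * π)⁻¹ * (eta m * p m) := rfl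

theorem ft_euc (f : Fn) (p : V) : ft f p = 𝓕 (fun w => f (e4.symm w)) (tau p) := by
  have h : MeasurePreserving e4 volume volume := PiLp.volume_preserving_toLp (Fin 4)
  rw [Real.fourier_eq', ← h.integral_comp e4.toHomeomorph.measurableEmbedding]
  refine integral_congr_ae (ae_of_all _ fun z => ?_)
  have e : -2 * π * ⟪e4 z, tau p⟫ = mdot p z := by
    simp only [PiLp.inner_apply, tau_apply, mdot, Finset.mul_sum]
    refine Finset.sum_congr rfl fun m _ => ?_
    have := Real.pi_ne_zero
    simp [e4]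
    field_simp
  simp only [smul_eq_mul, mul_comm (f z), ContinuousLinearEquiv.symm_apply_apply, e, mul_comm I]

/-- composition with a linear equivalence -/
def cE {E E' : Type*} [NormedAddCommGroup E] [NormedSpace ℝ E] [NormedAddCommGroup E']
    [NormedSpace ℝ E'] (e : E ≃L[ℝ] E') : 𝓢(E', ℂ) ≃L[ℂ] 𝓢(E, ℂ) :=
  ContinuousLinearEquiv.equivOfInverse (SchwartzMap.compCLMOfContinuousLinearEquiv ℂ e)
    (SchwartzMap.compCLMOfContinuousLinearEquiv ℂ e.symm) (fun f => by ext; simp) fun f => by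
      ext; simp

/-- the Fourier transform on Schwartz space -/
def ftS : Sch ≃L[ℂ] Sch := ((cE e4).symm.trans (FourierTransform.fourierCLE ℂ _)).trans (cE tau)

@[simp] theorem ftS_apply (g : Sch) (p : V) : ftS g p = ft (ev g) p := (ft_euc (ev g) p).symm
theorem ev_ftS (g : Sch) : ev (ftS g) = ft (ev g) := funext (ftS_apply g)
theorem test_ft (hf : IsTest f) : IsTest (ft f) := by obtain ⟨g, rfl⟩ := hf; exact ⟨_, ev_ftS g⟩
theorem exists_ft (hg : IsTest g) : ∃ f, IsTest f ∧ ft f = g := by
  obtain ⟨g, rfl⟩ := hg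
  exact ⟨_, ⟨_, rfl⟩, by rw [← ev_ftS, ftS.apply_symm_apply]⟩
theorem cont_ft (hf : IsTest f) : Continuous (ft f) := test_cont (test_ft hf)
theorem meas_ft (hf : IsTest f) : Measurable (ft f) := (cont_ft hf).measurable
theorem int_ft (hf : IsTest f) : Integrable (ft f) := test_int (test_ft hf)
theorem ft_inj (hf : IsTest f) (hg : IsTest g) (h : ft f = ft g) : f = g := by
  obtain ⟨f, rfl⟩ := hf; obtain ⟨g, rfl⟩ := hg
  rw [← ev_ftS, ← ev_ftS] at h
  rw [ftS.injective (SchwartzMap.ext (congrFun h))]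

/-! ### decay -/

/-- Decay of test functions, with a continuous seminorm. -/
theorem sch_decay (N : ℕ) : ∃ q : Seminorm ℂ Sch, Continuous q ∧
    ∀ (g : Sch) (k : V), ‖ev g k‖ ≤ q g * ((1 + ‖k‖) ^ N)⁻¹ := by
  refine ⟨(2 ^ N : NNReal) • (Finset.Iic (N, 0)).sup (schwartzSeminormFamily ℂ V ℂ),
    (Seminorm.continuous_finsetSup fun k _ =>
      (schwartz_withSeminorms ℂ V ℂ).continuous_seminorm k).const_smul (2 ^ N : NNReal),
    fun g k => ?_⟩
  have := SchwartzMap.one_add_le_sup_seminorm_apply (𝕜 := ℂ) (m := (N, 0)) le_rfl le_rfl g k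
  rw [norm_iteratedFDeriv_zero] at this
  rw [← div_eq_mul_inv, le_div_iff₀ (by positivity), mul_comm]
  refine this.trans_eq ?_
  simp [NNReal.smul_def]
  rfl

/-- **Decay of the transform, with a continuous seminorm.** -/
theorem ft_decay (N : ℕ) : ∃ q : Seminorm ℂ Sch, Continuous q ∧
    ∀ (g : Sch) (k : V), ‖ft (ev g) k‖ ≤ q g * ((1 + ‖k‖) ^ N)⁻¹ := by
  obtain ⟨q, h1, h2⟩ := sch_decay N
  exact ⟨q.comp ftS.toLinearMap, h1.comp ftS.continuous, fun g k => ev_ftS g ▸ h2 (ftS g) k⟩

theorem test_dec (hf : IsTest f) (N : ℕ) : ∃ C, 0 ≤ C ∧ ∀ k, ‖f k‖ ≤ C * ((1 + ‖k‖) ^ N)⁻¹ := by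
  obtain ⟨g, rfl⟩ := hf
  obtain ⟨q, -, h⟩ := sch_decay N
  exact ⟨q g, apply_nonneg q g, h g⟩

theorem ft_dec (hf : IsTest f) (N : ℕ) : ∃ C, 0 ≤ C ∧ ∀ k, ‖ft f k‖ ≤ C * ((1 + ‖k‖) ^ N)⁻¹ :=
  test_dec (test_ft hf) N

/-- Peetre's inequality -/
theorem peetre (p q : V) : 1 + ‖p‖ ≤ (1 + ‖p + q‖) * (1 + ‖q‖) := by
  have h : ‖p‖ ≤ ‖p + q‖ + ‖q‖ := by simpa using norm_sub_le (p + q) q
  nlinarith [norm_nonneg (p + q), norm_nonneg q]

theorem peetre_inv (p q : V) (N : ℕ) :
    ((1 + ‖p + q‖) ^ N)⁻¹ ≤ ((1 + ‖p‖) ^ N)⁻¹ * (1 + ‖q‖) ^ N := by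
  rw [← div_eq_inv_mul, le_div_iff₀ (by positivity), ← div_eq_inv_mul, div_le_iff₀ (by positivity),
    ← mul_pow, mul_comm]
  gcongr
  exact peetre p q

/-- test functions are integrable on the cone, with polynomial weights -/
theorem int_om (hf : IsTest f) {u : Fn} (hu : AEStronglyMeasurable u Om) {C : ℝ} {N : ℕ}
    (h : ∀ p, ‖u p‖ ≤ C * (1 + ‖p‖) ^ N) : Integrable (fun p => u p * f p) Om := by
  obtain ⟨C', -, h'⟩ := test_dec hf (N + 3)
  refine integrable_om_of_le (N := 3) (C := C * C') le_rfl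
    (hu.mul (test_cont hf).aestronglyMeasurable) fun p => ?_
  rw [norm_mul]
  refine (mul_le_mul (h p) (h' p) (norm_nonneg _) ((norm_nonneg _).trans (h p))).trans_eq ?_
  have : 0 < 1 + ‖p‖ := by positivity
  field_simp
  ring

theorem test_om (hf : IsTest f) : Integrable f Om := by
  simpa using int_om hf (u := fun _ => 1) aestronglyMeasurable_const (C := 1) (N := 0) (by simp)

end

end Vale.Agent.P352W.Ft
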