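import Vale.Agent.P352W.Cn.Defs
import Mathlib.MeasureTheory.Measure.Lebesgue.VolumeOfBalls
import Mathlib.MeasureTheory.Measure.Haar.InnerProductSpace
import Mathlib.Analysis.InnerProductSpace.Projection.Reflection

/-!
# P352W CN: the two point function of the free massless field in the forward tube
-/

set_option linter.all false

open MeasureTheory Filter Topology Set

namespace Vale.Agent.P352W.Cn.Wf

open Vale.Agent.P352.GF Vale.Agent.P352W.Cn

noncomputable section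

/-- the radial function -/
def rd (a : ℂ) (t : ℝ) : ℂ := (((2 * t)⁻¹ : ℝ) : ℂ) * Complex.exp (a * t)

lemma norm_ex (a : ℂ) (t : ℝ) : ‖Complex.exp (a * t)‖ = Real.exp (a.re * t) := by
  rw [Complex.norm_exp]
  simp

lemma one_dim {a : ℂ} (ha : a.re < 0) (u : ℝ) :
    ∫ ρ in Ioi (0 : ℝ), ρ • rd a (√(u ^ 2 + ρ ^ 2)) = -Complex.exp (a * (|u| : ℝ)) / (2 * a) := by
  have ha0 : a ≠ 0 := fun h => by simp [h] at ha
  have hge : ∀ ρ : ℝ, 0 < ρ → ρ ≤ √(u ^ 2 + ρ ^ 2) := fun ρ hρ =>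
    Real.le_sqrt_of_sq_le (by nlinarith [sq_nonneg u])
  have h := integral_Ioi_of_hasDerivAt_of_tendsto
    (f := fun ρ : ℝ => Complex.exp (a * (√(u ^ 2 + ρ ^ 2) : ℝ)) / (2 * a))
    (f' := fun ρ : ℝ => ρ • rd a (√(u ^ 2 + ρ ^ 2))) (a := 0) (m := 0) ?_ ?_ ?_ ?_
  · rw [h]
    simp [Real.sqrt_sq_eq_abs, neg_div]
  · exact Continuous.continuousWithinAt (by fun_prop)
  · intro ρ hρ
    have hρ' : (0 : ℝ) < ρ := hρ
    have hp : 0 < u ^ 2 + ρ ^ 2 := by positivity
    have h1 : HasDerivAt (fun ρ : ℝ => u ^ 2 + ρ ^ 2) (2 * ρ) ρ := by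
      simpa using (hasDerivAt_pow 2 ρ).const_add (u ^ 2)
    have h2 := (((h1.sqrt hp.ne').ofReal_comp.const_mul a).cexp).div_const (2 * a)
    refine h2.congr_deriv ?_
    have h3 : ((√(u ^ 2 + ρ ^ 2) : ℝ) : ℂ) ≠ 0 := by
      exact_mod_cast (Real.sqrt_pos.2 hp).ne'
    rw [rd, Complex.real_smul]
    push_cast
    field_simp
  · refine (integrableOn_exp_mul_Ioi ha 0).mono' ?_ ?_
    · refine Measurable.aestronglyMeasurable ?_
      unfold rd
      fun_prop
    · filter_upwards [ae_restrict_mem measurableSet_Ioi] with ρ hρ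
      have hρ' : (0 : ℝ) < ρ := hρ
      have h1 := hge ρ hρ'
      have h2 : 0 < √(u ^ 2 + ρ ^ 2) := hρ'.trans_le h1
      rw [norm_smul, rd, norm_mul, norm_ex, Complex.norm_real, Real.norm_of_nonneg hρ'.le,
        Real.norm_of_nonneg (by positivity), ← mul_assoc]
      have h3 : ρ * (2 * √(u ^ 2 + ρ ^ 2))⁻¹ ≤ 1 := by
        rw [← div_eq_mul_inv, div_le_one (by positivity)]
        linarith
      have h4 : Real.exp (a.re * √(u ^ 2 + ρ ^ 2)) ≤ Real.exp (a.re * ρ) :=
        Real.exp_le_exp.2 (by nlinarith)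
      calc _ ≤ 1 * Real.exp (a.re * ρ) := by gcongr
        _ = _ := one_mul _
  · rw [← zero_div (2 * a)]
    refine Tendsto.div_const ?_ _
    rw [tendsto_zero_iff_norm_tendsto_zero]
    simp only [norm_ex]
    refine Real.tendsto_exp_atBot.comp (Tendsto.const_mul_atTop_of_neg ha ?_)
    refine tendsto_atTop_mono' _ ?_ tendsto_id
    filter_upwards [eventually_gt_atTop 0] with ρ hρ using hge ρ hρ

lemma two_dim {a : ℂ} (ha : a.re < 0) (u : ℝ) :
    ∫ y : Fin 2 → ℝ, rd a (√(u ^ 2 + ‖(WithLp.toLp 2 y : EuclideanSpace ℝ (Fin 2))‖ ^ 2)) =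
      -Real.pi * Complex.exp (a * (|u| : ℝ)) / a := by
  have ha0 : a ≠ 0 := fun h => by simp [h] at ha
  have h1 := (PiLp.volume_preserving_toLp (Fin 2)).integral_comp
    (MeasurableEquiv.toLp 2 (Fin 2 → ℝ)).measurableEmbedding
    (fun y : EuclideanSpace ℝ (Fin 2) => rd a (√(u ^ 2 + ‖y‖ ^ 2)))
  rw [h1, integral_fun_norm_addHaar (volume : Measure (EuclideanSpace ℝ (Fin 2)))
    (fun t => rd a (√(u ^ 2 + t ^ 2)))]
  have h2 : (volume : Measure (EuclideanSpace ℝ (Fin 2))).real (Metric.ball 0 1) = Real.pi := by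
    rw [Measure.real, EuclideanSpace.volume_ball_fin_two]
    simp [Real.pi_pos.le]
  simp only [finrank_euclideanSpace, Fintype.card_fin, h2, Nat.add_one_sub_one, pow_one]
  rw [one_dim ha, Complex.real_smul, nsmul_eq_mul]
  push_cast
  field_simp

lemma line {a : ℂ} (ha : a.re < 0) (r : ℝ) :
    ∫ u : ℝ, Complex.exp (a * (|u| : ℝ)) * Complex.exp (-(Complex.I * r * u)) =
      -(2 * a) / (a ^ 2 + r ^ 2) := by
  have h1 : 0 < (-a - Complex.I * r).re := by simpa using ha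
  have h2 : (a - Complex.I * r).re < 0 := by simpa using ha
  have e1 : EqOn (fun u : ℝ => Complex.exp ((-a - Complex.I * r) * u))
      (fun u : ℝ => Complex.exp (a * (|u| : ℝ)) * Complex.exp (-(Complex.I * r * u))) (Iic 0) := by
    intro u hu
    simp only
    rw [abs_of_nonpos hu, ← Complex.exp_add]
    congr 1
    push_cast
    ring
  have e2 : EqOn (fun u : ℝ => Complex.exp ((a - Complex.I * r) * u))
      (fun u : ℝ => Complex.exp (a * (|u| : ℝ)) * Complex.exp (-(Complex.I * r * u))) (Ioi 0) := by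
    intro u hu
    simp only
    rw [abs_of_pos hu, ← Complex.exp_add]
    congr 1
    ring
  rw [← intervalIntegral.integral_Iic_add_Ioi (b := 0)
    ((integrableOn_exp_mul_complex_Iic h1 0).congr_fun e1 measurableSet_Iic)
    ((integrableOn_exp_mul_complex_Ioi h2 0).congr_fun e2 measurableSet_Ioi),
    ← setIntegral_congr_fun measurableSet_Iic e1, ← setIntegral_congr_fun measurableSet_Ioi e2,
    integral_exp_mul_complex_Iic h1, integral_exp_mul_complex_Ioi h2]
  have n1 : -a - Complex.I * r ≠ 0 := fun h => by simp [h] at h1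
  have n2 : a - Complex.I * r ≠ 0 := fun h => by simp [h] at h2
  have e : a ^ 2 + (r : ℂ) ^ 2 = -((-a - Complex.I * r) * (a - Complex.I * r)) := by
    linear_combination (r : ℂ) ^ 2 * Complex.I_mul_I
  rw [e]
  simp only [Complex.ofReal_zero, mul_zero, Complex.exp_zero]
  field_simp
  ring

lemma int_exp {c : ℝ} (hc : c < 0) : Integrable (fun p : V => Real.exp (c * p o)) Om := by
  rw [integrable_om_rad fun t => Real.exp (c * t)]
  have h := integrableOn_rpow_mul_exp_neg_mul_rpow (s := 1) (p := 1) (b := -c) (by norm_num)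
    one_pos (by linarith)
  simpa using h

lemma int_rd {a : ℂ} (ha : a.re < 0) : Integrable fun k : E3 => rd a ‖k‖ := by
  have h := (integrable_om _).1 (int_exp ha)
  refine h.mono' (Measurable.aestronglyMeasurable (by unfold rd; fun_prop)) (ae_of_all _ fun k => ?_)
  rw [rd, norm_mul, norm_ex, Complex.norm_real, Real.norm_of_nonneg (by positivity)]
  exact le_rfl

lemma axis {a : ℂ} (ha : a.re < 0) (r : ℝ) :
    ∫ k : E3, rd a ‖k‖ * Complex.exp (-(Complex.I * r * k 0)) =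
      2 * Real.pi / (a ^ 2 + r ^ 2) := by
  have ha0 : a ≠ 0 := fun h => by simp [h] at ha
  set e : E3 ≃ᵐ ℝ × (Fin 2 → ℝ) := (MeasurableEquiv.toLp 2 (Fin 3 → ℝ)).symm.trans
    (MeasurableEquiv.piFinSuccAbove (fun _ : Fin 3 => ℝ) 0) with he
  have hm : MeasurePreserving e := (volume_preserving_piFinSuccAbove (fun _ : Fin 3 => ℝ) 0).comp
    (EuclideanSpace.volume_preserving_symm_measurableEquiv_toLp (Fin 3))
  set G : ℝ × (Fin 2 → ℝ) → ℂ := fun z =>
    rd a (√(z.1 ^ 2 + ‖(WithLp.toLp 2 z.2 : EuclideanSpace ℝ (Fin 2))‖ ^ 2)) *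
      Complex.exp (-(Complex.I * r * z.1)) with hG
  have hGe : ∀ k : E3, G (e k) = rd a ‖k‖ * Complex.exp (-(Complex.I * r * k 0)) := by
    intro k
    have h1 : (e k).1 = k 0 := rfl
    have h2 : ∀ j, (e k).2 j = k j.succ := fun j => rfl
    have h3 : (e k).1 ^ 2 + ‖(WithLp.toLp 2 (e k).2 : EuclideanSpace ℝ (Fin 2))‖ ^ 2 = ‖k‖ ^ 2 := by
      rw [EuclideanSpace.norm_sq_eq, EuclideanSpace.norm_sq_eq, Fin.sum_univ_succ (n := 2), h1]
      simp [h2]
    simp only [hG]
    rw [h3, Real.sqrt_sq (norm_nonneg _), h1]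
  have hi : Integrable G := by
    rw [← hm.integrable_comp_emb e.measurableEmbedding]
    refine ((int_rd ha).mul_bdd (c := 1)
      (g := fun k : E3 => Complex.exp (-(Complex.I * r * k 0))) (by fun_prop)
      (ae_of_all _ fun k => ?_)).congr (ae_of_all _ fun k => (hGe k).symm)
    rw [Complex.norm_exp]
    simp
  simp only [← hGe]
  rw [hm.integral_comp' G, Measure.volume_eq_prod, integral_prod _ hi]
  simp only [hG, integral_mul_const, two_dim ha]
  have e1 : ∀ u : ℝ, -(Real.pi : ℂ) * Complex.exp (a * (|u| : ℝ)) / a *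
      Complex.exp (-(Complex.I * r * u)) = (-Real.pi / a) *
        (Complex.exp (a * (|u| : ℝ)) * Complex.exp (-(Complex.I * r * u))) := fun u => by ring
  simp only [e1]
  rw [integral_const_mul, line ha]
  field_simp

lemma rot {a : ℂ} (ha : a.re < 0) (x : E3) :
    ∫ k : E3, rd a ‖k‖ * Complex.exp (-(Complex.I * (inner ℝ k x : ℝ))) =
      2 * Real.pi / (a ^ 2 + (‖x‖ : ℝ) ^ 2) := by
  set w : E3 := EuclideanSpace.single 0 ‖x‖ with hw
  have hn : ‖x‖ = ‖w‖ := by simp [hw]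
  set ρ : E3 ≃ₗᵢ[ℝ] E3 := (ℝ ∙ (x - w))ᗮ.reflection with hρ
  have hx : ρ x = w := Submodule.reflection_sub hn
  rw [← axis ha ‖x‖, ← ρ.measurePreserving.integral_comp ρ.toHomeomorph.measurableEmbedding
    (fun k : E3 => rd a ‖k‖ * Complex.exp (-(Complex.I * (‖x‖ : ℝ) * k 0)))]
  refine integral_congr_ae (ae_of_all _ fun k => ?_)
  have h1 : inner ℝ k x = ‖x‖ * ρ k 0 := by
    rw [← ρ.inner_map_map, hx, hw, EuclideanSpace.inner_single_right]
    simp
  simp only [h1, ρ.norm_map]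
  push_cast
  ring_nf

end

end Vale.Agent.P352W.Cn.Wf

namespace Vale.Agent.P352W.Cn

open Vale.Agent.P352.GF MeasureTheory

theorem norm_sp (x : V) : ‖sp x‖ ^ 2 = x o ^ 2 - mdot x x := by
  rw [norm_sq_e3, mdot_eq]
  simp only [sp_apply]
  ring

/-- **The two point function.** -/
theorem wf {ε : ℝ} (hε : 0 < ε) (x : V) :
    ∫ p, Complex.exp (Complex.I * mdot p x - ε * p o) ∂Om =
      2 * Real.pi / ((x o ^ 2 - mdot x x : ℝ) - (x o + Complex.I * ε) ^ 2) := by
  have ha : (Complex.I * x o - ε : ℂ).re < 0 := by simpa using hε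
  have h := Wf.rot ha (sp x)
  have e : (Complex.I * x o - ε : ℂ) ^ 2 + (‖sp x‖ : ℝ) ^ 2 =
      (x o ^ 2 - mdot x x : ℝ) - (x o + Complex.I * ε) ^ 2 := by
    rw [← norm_sp]
    push_cast
    linear_combination ((x o : ℂ) ^ 2 + (ε : ℂ) ^ 2) * Complex.I_mul_I
  rw [← e, ← h, integral_om]
  refine integral_congr_ae (ae_of_all _ fun k => ?_)
  have h1 : inner ℝ k (sp x) = ∑ i : Fin 3, k i * x i.succ := by
    simp [PiLp.inner_apply, mul_comm]
  simp only [Wf.rd, mdot_eq, cn_o, cn_succ, h1]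
  rw [mul_assoc, ← Complex.exp_add]
  congr 2
  push_cast
  ring

/-- the same in the form `-2π / ((x⁰ + iε)² - |x⃗|²)` -/
theorem wf' {ε : ℝ} (hε : 0 < ε) (x : V) :
    ∫ p, Complex.exp (Complex.I * mdot p x - ε * p o) ∂Om =
      -(2 * Real.pi) / ((x o + Complex.I * ε) ^ 2 - (‖sp x‖ : ℝ) ^ 2) := by
  rw [wf hε, ← norm_sp, ← neg_div_neg_eq]
  push_cast
  congr 1
  ring

theorem om_exp {ε : ℝ} (hε : 0 < ε) : Integrable (fun p : V => Real.exp (-ε * p o)) Om :=
  Wf.int_exp (neg_neg_of_pos hε)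

end Vale.Agent.P352W.Cn
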