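import Vale.Agent.P352W.Cn.Pj0
import Vale.Agent.P352W.Cn.Wf
import Vale.Agent.P352W.Cn.Ft

/-!
# P352W CN — the Pauli–Jordan identity for all Schwartz functions
-/

open MeasureTheory
open Complex (I)

namespace Vale.Agent.P352W.Cn

open Vale.Agent.P352.GF

theorem wf_holds : WF := fun ε hε x => by
  rw [wf' hε, wk, neg_mul]

theorem ft_om {g : Fn} (hg : IsTest g) : Integrable (ft g) Om := Ft.test_om (Ft.test_ft hg)

theorem ft_om_neg {g : Fn} (hg : IsTest g) : Integrable (fun q => ft g (-q)) Om :=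
  Ft.test_om (Ft.test_neg (Ft.test_ft hg))

/-- **The commutator solution vanishes at points spacelike to the support of the source.** -/
theorem pj_pt {g : Fn} (hg : IsTest g) {x : V}
    (h : ∀ y ∈ tsupport g, mdot (x - y) (x - y) < 0) :
    ∫ q, (ft g q * Complex.exp (I * mdot (-q) x) - ft g (-q) * Complex.exp (I * mdot q x)) ∂Om
      = 0 :=
  pj_pt0 wf_holds hg (ft_om hg) (ft_om_neg hg) h

/-- **Pauli–Jordan identity.** -/
theorem pj {f g : Fn} (hf : IsTest f) (hg : IsTest g) (h : Sep f g) :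
    ∫ p, ft f (-p) * ft g p ∂Om = ∫ p, ft f p * ft g (-p) ∂Om :=
  pj0 wf_holds hf hg (ft_om hg) (ft_om_neg hg) h

/-- The same with the two functions exchanged on the right. -/
theorem pj' {f g : Fn} (hf : IsTest f) (hg : IsTest g) (h : Sep f g) :
    ∫ p, ft f (-p) * ft g p ∂Om = ∫ p, ft g (-p) * ft f p ∂Om := by
  rw [pj hf hg h]
  simp only [mul_comm]

end Vale.Agent.P352W.Cn
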