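import Vale.Agent.P352W.Cn.Defs
import Mathlib.MeasureTheory.Function.Jacobian

/-!
# P352W CN — invariance of the cone measure

`om_inv : Om.map (sim s L 0) = s⁻² • Om` for `s > 0` and `L` proper orthochronous.
-/

open MeasureTheory Filter Topology
open scoped ENNReal

namespace Vale.Agent.P352W.Cn

open Vale.Agent.P352.GF

noncomputable section

/-- The inverse Lorentz matrix `η Lᵀ η`. -/
def li (L : Ix → V) : Ix → V := fun m n => eta m * L n m * eta n

theorem eta_sq (m : Ix) : eta m * eta m = 1 := by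
  unfold eta; split_ifs <;> norm_num

theorem bas_eta (m n : Ix) : bas m (eta m) n * eta n = (1 : Matrix Ix Ix ℝ) m n := by
  unfold bas
  by_cases h : n = m
  · subst h; simp [eta_sq]
  · simp [h, Matrix.one_apply_ne (Ne.symm h)]

theorem mul_li {L : Ix → V} (hL : IsLor L) : Matrix.of L * Matrix.of (li L) = 1 := by
  ext m n
  rw [← bas_eta, ← hL.1 m n]
  simp only [Matrix.mul_apply, Matrix.of_apply, li, mdot, Finset.sum_mul]
  exact Finset.sum_congr rfl fun k _ => by ring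

theorem li_mul {L : Ix → V} (hL : IsLor L) : Matrix.of (li L) * Matrix.of L = 1 :=
  mul_eq_one_comm.1 (mul_li hL)

/-- Column orthogonality. -/
theorem col {L : Ix → V} (hL : IsLor L) (m n : Ix) :
    ∑ k, eta k * L k m * L k n = bas m (eta m) n := by
  have h := congrFun (congrFun (li_mul hL) m) n
  rw [← bas_eta] at h
  simp only [Matrix.mul_apply, Matrix.of_apply, li] at h
  have h2 : ∑ k, eta k * L k m * L k n = eta m * ∑ k, eta m * L k m * eta k * L k n := by
    rw [Finset.mul_sum]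
    refine Finset.sum_congr rfl fun k _ => ?_
    linear_combination (-(eta k * L k m * L k n)) * eta_sq m
  rw [h2, h]
  unfold bas
  by_cases hn : n = m
  · subst hn; simp only [if_true]; rw [eta_sq, mul_one]
  · simp [hn]

theorem isLor_li {L : Ix → V} (hL : IsLor L) : IsLor (li L) := by
  refine ⟨fun m n => ?_, ?_, ?_⟩
  · have h : mdot (li L m) (li L n) = eta m * eta n * ∑ k, eta k * L k m * L k n := by
      simp only [mdot, li, Finset.mul_sum]
      refine Finset.sum_congr rfl fun k _ => ?_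
      linear_combination (eta m * eta n * eta k * L k m * L k n) * eta_sq k
    rw [h, col hL]
    unfold bas
    by_cases hn : n = m
    · subst hn; simp only [if_true]; rw [eta_sq, one_mul]
    · simp [hn]
  · simpa [li, eta] using hL.2.1
  · have h := congrArg Matrix.det (mul_li hL)
    have h1 : (Matrix.of L).det = 1 := hL.2.2
    rw [Matrix.det_mul, h1, one_mul, Matrix.det_one] at h
    exact h

theorem sim_sim {A B : Ix → V} (h : Matrix.of A * Matrix.of B = 1) {s t : ℝ} (hst : t * s = 1)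
    (x : V) : sim t B 0 (sim s A 0 x) = x := by
  funext n
  have h1 : ∀ m, ∑ k, A m k * B k n = (1 : Matrix Ix Ix ℝ) m n := fun m =>
    congrFun (congrFun h m) n
  simp only [sim, Pi.zero_apply, zero_add]
  have h2 : ∑ k, (s * ∑ m, x m * A m k) * B k n = s * ∑ m, x m * ∑ k, A m k * B k n := by
    simp only [Finset.mul_sum, Finset.sum_mul]
    rw [Finset.sum_comm]
    exact Finset.sum_congr rfl fun m _ => Finset.sum_congr rfl fun k _ => by ring
  rw [h2, ← mul_assoc, hst, one_mul]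
  simp [h1, Matrix.one_apply]

theorem sim_li {L : Ix → V} (hL : IsLor L) {s : ℝ} (hs : s ≠ 0) (x : V) :
    sim s L 0 (sim s⁻¹ (li L) 0 x) = x :=
  sim_sim (li_mul hL) (mul_inv_cancel₀ hs) x

theorem li_sim {L : Ix → V} (hL : IsLor L) {s : ℝ} (hs : s ≠ 0) (x : V) :
    sim s⁻¹ (li L) 0 (sim s L 0 x) = x :=
  sim_sim (mul_li hL) (inv_mul_cancel₀ hs) x

theorem mdot_sim {L : Ix → V} (hL : IsLor L) (s : ℝ) (x y : V) :
    mdot (sim s L 0 x) (sim s L 0 y) = s ^ 2 * mdot x y := by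
  have h : mdot (sim s L 0 x) (sim s L 0 y) =
      s ^ 2 * ∑ m, ∑ n, x m * y n * mdot (L m) (L n) := by
    simp only [mdot, sim, Pi.zero_apply, zero_add, Fin.sum_univ_four]
    ring
  rw [h]
  simp only [hL.1, bas, mul_ite, mul_zero, Finset.sum_ite_eq', Finset.mem_univ, if_true]
  congr 1
  exact Finset.sum_congr rfl fun m _ => by ring

theorem continuous_sim (s : ℝ) (L : Ix → V) (a : V) : Continuous (sim s L a) := by
  unfold sim; fun_prop

/-- The time component of the image of a cone vector. -/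
theorem sim_cn_o (s : ℝ) (L : Ix → V) (k : E3) :
    sim s L 0 (cn k) o = s * (‖k‖ * L o o + ∑ j : Fin 3, k j * L j.succ o) := by
  simp only [sim, Pi.zero_apply, zero_add]
  rw [Fin.sum_univ_succ]
  rfl

theorem sim_cn_pos {L : Ix → V} (hL : IsLor L) {s : ℝ} (hs : 0 < s) {k : E3} (hk : k ≠ 0) :
    0 < sim s L 0 (cn k) o := by
  rw [sim_cn_o]
  refine mul_pos hs ?_
  have hc := col hL o o
  have h0 : 0 < ‖k‖ := norm_pos_iff.2 hk
  have hc' : L o o ^ 2 = 1 + ∑ j : Fin 3, L j.succ o ^ 2 := by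
    rw [Fin.sum_univ_succ] at hc
    simp only [eta, bas, o, if_true, Fin.succ_ne_zero, if_false] at hc ⊢
    simp only [Fin.sum_univ_three] at hc ⊢
    linarith
  have hn : ‖k‖ ^ 2 = ∑ j, k j ^ 2 := by rw [norm_sq_e3]; simp only [sq]
  have hcs := Finset.sum_mul_sq_le_sq_mul_sq Finset.univ (fun j : Fin 3 => k j)
    fun j => L j.succ o
  have h : (∑ j : Fin 3, k j * L j.succ o) ^ 2 < (‖k‖ * L o o) ^ 2 := by
    rw [mul_pow, hc', mul_add, ← hn] at *
    nlinarith [sq_pos_of_pos h0]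
  linarith [(abs_lt.1 (abs_lt_of_sq_lt_sq h (mul_pos h0 hL.2.1).le)).1]

/-- The induced map of momentum three-space. -/
def ph (s : ℝ) (L : Ix → V) (k : E3) : E3 := sp (sim s L 0 (cn k))

theorem cn_ph {L : Ix → V} (hL : IsLor L) {s : ℝ} (hs : 0 < s) {k : E3} (hk : k ≠ 0) :
    cn (ph s L k) = sim s L 0 (cn k) :=
  cn_sp (sim_cn_pos hL hs hk).le (by rw [mdot_sim hL, mdot_cn, mul_zero])

theorem norm_ph {L : Ix → V} (hL : IsLor L) {s : ℝ} (hs : 0 < s) {k : E3} (hk : k ≠ 0) :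
    ‖ph s L k‖ = s * (‖k‖ * L o o + ∑ j : Fin 3, k j * L j.succ o) := by
  rw [← cn_o, cn_ph hL hs hk, sim_cn_o]

theorem ph_ne {L : Ix → V} (hL : IsLor L) {s : ℝ} (hs : 0 < s) {k : E3} (hk : k ≠ 0) :
    ph s L k ≠ 0 := by
  rw [← norm_pos_iff, ← cn_o, cn_ph hL hs hk]
  exact sim_cn_pos hL hs hk

theorem ph_inj {L : Ix → V} (hL : IsLor L) {s : ℝ} (hs : 0 < s) :
    Set.InjOn (ph s L) {0}ᶜ := by
  intro a ha b hb h
  have h1 := congrArg (fun k => sp (sim s⁻¹ (li L) 0 (cn k))) h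
  simpa only [cn_ph hL hs ha, cn_ph hL hs hb, li_sim hL hs.ne', sp_cn] using h1

theorem ph_image {L : Ix → V} (hL : IsLor L) {s : ℝ} (hs : 0 < s) :
    ph s L '' {0}ᶜ = {0}ᶜ := by
  refine Set.Subset.antisymm ?_ fun k hk => ?_
  · rintro _ ⟨k, hk, rfl⟩
    exact ph_ne hL hs hk
  · refine ⟨ph s⁻¹ (li L) k, ph_ne (isLor_li hL) (inv_pos.2 hs) hk, ?_⟩
    rw [ph, cn_ph (isLor_li hL) (inv_pos.2 hs) hk, sim_li hL hs.ne', sp_cn]

/-- The Jacobian matrix. -/
def jm (s : ℝ) (L : Ix → V) (k : E3) : Matrix (Fin 3) (Fin 3) ℝ :=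
  Matrix.of fun i j => s * (k j / ‖k‖ * L o i.succ + L j.succ i.succ)

/-- The derivative. -/
def jd (s : ℝ) (L : Ix → V) (k : E3) : E3 →L[ℝ] E3 :=
  LinearMap.toContinuousLinearMap
    (Matrix.toLin (PiLp.basisFun 2 ℝ (Fin 3)) (PiLp.basisFun 2 ℝ (Fin 3)) (jm s L k))

theorem jd_apply (s : ℝ) (L : Ix → V) (k h : E3) (i : Fin 3) :
    jd s L k h i = ∑ j, jm s L k i j * h j := by
  simp [jd, Matrix.toLin_apply, Matrix.mulVec, dotProduct, Pi.single_apply]

theorem hasFDerivAt_nrm {k : E3} (hk : k ≠ 0) :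
    HasFDerivAt (fun x : E3 => ‖x‖) (‖k‖⁻¹ • innerSL ℝ k) k := by
  have h0 : ‖k‖ ≠ 0 := norm_ne_zero_iff.2 hk
  have h := (hasStrictFDerivAt_norm_sq k).hasFDerivAt.sqrt (pow_ne_zero 2 h0)
  simp only [Real.sqrt_sq (norm_nonneg _)] at h
  refine h.congr_fderiv ?_
  ext v
  simp only [smul_apply, smul_eq_mul, nsmul_eq_mul]
  field_simp
  norm_num

theorem hasFDerivAt_ph (s : ℝ) (L : Ix → V) {k : E3} (hk : k ≠ 0) :
    HasFDerivAt (ph s L) (jd s L k) k := by
  rw [← hasFDerivWithinAt_univ, hasFDerivWithinAt_euclidean]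
  intro i
  have h1 : (fun x : E3 => ph s L x i) =
      fun x => s * (‖x‖ * L o i.succ + ∑ j : Fin 3, x j * L j.succ i.succ) := by
    funext x
    simp only [ph, sp_apply, sim, Pi.zero_apply, zero_add]
    rw [Fin.sum_univ_succ]
    rfl
  rw [h1, hasFDerivWithinAt_univ]
  have h2 : ∀ j : Fin 3, HasFDerivAt (fun x : E3 => x j) (PiLp.proj 2 _ j : E3 →L[ℝ] ℝ) k :=
    fun j => (PiLp.proj 2 (fun _ : Fin 3 => ℝ) j : E3 →L[ℝ] ℝ).hasFDerivAt
  refine ((((hasFDerivAt_nrm hk).mul_const _).fun_add (HasFDerivAt.fun_sum fun j _ =>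
    (h2 j).mul_const _)).const_mul s).congr_fderiv ?_
  ext v
  simp [jd_apply, jm, Fin.sum_univ_three, PiLp.inner_apply]
  ring

theorem det_jm {L : Ix → V} (hL : IsLor L) (s : ℝ) (k : E3) :
    (jm s L k).det = s ^ 3 * (L o o + ∑ j : Fin 3, k j / ‖k‖ * L j.succ o) := by
  have h1 : (Matrix.of L).det = 1 := hL.2.2
  have ha : (Matrix.of L).adjugate = Matrix.of (li L) := by
    rw [← Matrix.inv_eq_right_inv (mul_li hL), Matrix.inv_def, h1]
    simp
  have hc : ∀ m : Ix, li L 0 m = (-1) ^ ((m : ℕ) + ((0 : Ix) : ℕ)) *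
      ((Matrix.of L).submatrix m.succAbove (0 : Ix).succAbove).det := fun m => by
    rw [← Matrix.adjugate_fin_succ_eq_det_submatrix, ha]; rfl
  have c0 := hc 0
  have c1 := hc 1
  have c2 := hc 2
  have c3 := hc 3
  simp [li, eta, o, Matrix.det_fin_three, Fin.succAbove] at c0 c1 c2 c3
  simp [jm, Matrix.det_fin_three, Fin.sum_univ_three, o]
  linear_combination (-s ^ 3) * c0 + (s ^ 3 * (k 0 / ‖k‖)) * c1 + (s ^ 3 * (k 1 / ‖k‖)) * c2 +
    (s ^ 3 * (k 2 / ‖k‖)) * c3

theorem det_jd {L : Ix → V} (hL : IsLor L) {s : ℝ} (hs : 0 < s) {k : E3} (hk : k ≠ 0) :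
    (jd s L k).det = s ^ 2 * (‖ph s L k‖ / ‖k‖) := by
  have h0 : ‖k‖ ≠ 0 := norm_ne_zero_iff.2 hk
  have h : (jd s L k).det = (jm s L k).det := LinearMap.det_toLin _ _
  rw [h, det_jm hL, norm_ph hL hs hk]
  simp only [Fin.sum_univ_three]
  field_simp

theorem lintegral_sim {L : Ix → V} (hL : IsLor L) {s : ℝ} (hs : 0 < s) {F : V → ℝ≥0∞}
    (hF : Measurable F) :
    ∫⁻ p, F p ∂Om = ENNReal.ofReal (s ^ 2) * ∫⁻ p, F (sim s L 0 p) ∂Om := by
  have hm : MeasurableSet ({0}ᶜ : Set E3) := (measurableSet_singleton 0).compl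
  rw [lintegral_om hF, lintegral_om (F := fun p => F (sim s L 0 p))
    (hF.comp (continuous_sim s L 0).measurable), ← lintegral_const_mul' _ _ ENNReal.ofReal_ne_top,
    ← restrict_compl_singleton (μ := (volume : Measure E3)) 0]
  conv_lhs => rw [← ph_image hL hs]
  rw [lintegral_image_eq_lintegral_abs_det_fderiv_mul _ hm
    (fun k hk => (hasFDerivAt_ph s L hk).hasFDerivWithinAt) (ph_inj hL hs)]
  refine setLIntegral_congr_fun hm fun k hk => ?_
  have h0 : 0 < ‖k‖ := norm_pos_iff.2 hk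
  have h1 : 0 < ‖ph s L k‖ := norm_pos_iff.2 (ph_ne hL hs hk)
  rw [det_jd hL hs hk, cn_ph hL hs hk, abs_of_pos (by positivity), ← mul_assoc, ← mul_assoc,
    ← ENNReal.ofReal_mul (by positivity), ← ENNReal.ofReal_mul (by positivity)]
  congr 2
  field_simp

/-- **Invariance of the cone measure.** -/
theorem om_inv {L : Ix → V} {s : ℝ} (hs : 0 < s) (hL : IsLor L) :
    Om.map (sim s L 0) = ENNReal.ofReal (s ^ 2)⁻¹ • Om := by
  ext A hA
  have hm := (continuous_sim s L 0).measurable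
  rw [Measure.smul_apply, smul_eq_mul, ← lintegral_indicator_one hA, ← lintegral_indicator_one hA,
    lintegral_map (measurable_one.indicator hA) hm,
    lintegral_sim hL hs (measurable_one.indicator hA), ← mul_assoc,
    ← ENNReal.ofReal_mul (by positivity), inv_mul_cancel₀ (by positivity), ENNReal.ofReal_one,
    one_mul]

theorem om_lor {L : Ix → V} (hL : IsLor L) : MeasurePreserving (sim 1 L 0) Om Om :=
  ⟨(continuous_sim 1 L 0).measurable, by simpa using om_inv one_pos hL⟩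

/-- `sim s L 0` as a homeomorphism. -/
def simH {L : Ix → V} {s : ℝ} (hs : 0 < s) (hL : IsLor L) : V ≃ₜ V where
  toFun := sim s L 0
  invFun := sim s⁻¹ (li L) 0
  left_inv := li_sim hL hs.ne'
  right_inv := sim_li hL hs.ne'
  continuous_toFun := continuous_sim _ _ _
  continuous_invFun := continuous_sim _ _ _

theorem sim_emb {L : Ix → V} {s : ℝ} (hs : 0 < s) (hL : IsLor L) :
    MeasurableEmbedding (sim s L 0) := (simH hs hL).measurableEmbedding

/-- Change of variables on the cone (no hypothesis on `F`). -/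
theorem integral_sim {G : Type*} [NormedAddCommGroup G] [NormedSpace ℝ G] {L : Ix → V} {s : ℝ}
    (hs : 0 < s) (hL : IsLor L) (F : V → G) :
    ∫ p, F (sim s L 0 p) ∂Om = (s ^ 2)⁻¹ • ∫ p, F p ∂Om := by
  rw [← (sim_emb hs hL).integral_map, om_inv hs hL, integral_smul_measure,
    ENNReal.toReal_ofReal (by positivity)]

theorem integrable_sim {G : Type*} [NormedAddCommGroup G] {L : Ix → V} {s : ℝ}
    (hs : 0 < s) (hL : IsLor L) (F : V → G) :
    Integrable (fun p => F (sim s L 0 p)) Om ↔ Integrable F Om := by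
  have h := (sim_emb hs hL).integrable_map_iff (f := sim s L 0) (g := F) (μ := Om)
  rw [om_inv hs hL, integrable_smul_measure (by simp [hs.ne'])
    ENNReal.ofReal_ne_top] at h
  exact h.symm

end

end Vale.Agent.P352W.Cn
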