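import Vale.Agent.P352.GFDefs
import Mathlib.MeasureTheory.Constructions.HaarToSphere
import Mathlib.Analysis.SpecialFunctions.ImproperIntegrals

/-!
# P352W CN — the invariant measure on the forward light cone

`Om = d³k / (2 |k|)` on the cone `p = (|k|, k)`, the Fourier transform `ft f p = ∫ f(x) e^{i p x}`,
and the elementary rows: `om_ae`, `lintegral_om`, `integral_om`, `om_int`.
-/

open MeasureTheory Filter Topology
open scoped ENNReal

namespace Vale.Agent.P352W.Cn

open Vale.Agent.P352.GF

noncomputable section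

/-- Momentum three-space. -/
abbrev E3 := EuclideanSpace ℝ (Fin 3)

/-- The point `(|k|, k)` of the forward light cone. -/
def cn (k : E3) : V := Fin.cons ‖k‖ fun i => k i

/-- The measure `d³k / (2 |k|)`. -/
def wm : Measure E3 := (volume : Measure E3).withDensity fun k => ENNReal.ofReal (2 * ‖k‖)⁻¹

/-- The invariant measure on the forward light cone. -/
def Om : Measure V := wm.map cn

/-- Fourier transform. -/
def ft (f : Fn) (p : V) : ℂ := ∫ x, f x * Complex.exp (Complex.I * mdot p x)

@[simp] theorem cn_o (k : E3) : cn k o = ‖k‖ := rfl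

@[simp] theorem cn_succ (k : E3) (i : Fin 3) : cn k i.succ = k i := rfl

theorem mdot_eq (x y : V) :
    mdot x y = x o * y o - ∑ i : Fin 3, x i.succ * y i.succ := by
  simp [mdot, eta, o, Fin.sum_univ_succ]
  ring

theorem continuous_cn : Continuous cn := by
  refine continuous_pi fun m => ?_
  refine Fin.cases ?_ (fun i => ?_) m
  · exact continuous_norm
  · simp only [cn_succ]; fun_prop

theorem measurable_cn : Measurable cn := continuous_cn.measurable

theorem norm_sq_e3 (k : E3) : ‖k‖ ^ 2 = ∑ i, k i * k i := by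
  rw [EuclideanSpace.norm_sq_eq]
  simp [sq]

theorem mdot_cn (k : E3) : mdot (cn k) (cn k) = 0 := by
  rw [mdot_eq]
  simp only [cn_o, cn_succ]
  rw [← norm_sq_e3]; ring

theorem measurable_dens : Measurable fun k : E3 => ENNReal.ofReal (2 * ‖k‖)⁻¹ := by
  fun_prop

theorem continuous_mdot : Continuous fun z : V × V => mdot z.1 z.2 := by
  unfold mdot; fun_prop

theorem ae_ne_zero : ∀ᵐ k ∂(volume : Measure E3), k ≠ 0 := by
  simp [ae_iff]

instance : SigmaFinite wm := by
  unfold wm
  exact SigmaFinite.withDensity_ofReal _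

theorem om_ae : ∀ᵐ p ∂Om, 0 < p o ∧ mdot p p = 0 := by
  have hm : MeasurableSet {p : V | 0 < p o ∧ mdot p p = 0} := by
    refine (measurableSet_lt measurable_const (measurable_pi_apply o)).inter ?_
    exact measurableSet_eq_fun (continuous_mdot.comp (continuous_id.prodMk continuous_id)).measurable
      measurable_const
  unfold Om
  rw [ae_map_iff measurable_cn.aemeasurable hm]
  refine (withDensity_absolutelyContinuous _ _).ae_le ?_
  filter_upwards [ae_ne_zero] with k hk
  exact ⟨by simpa using hk, mdot_cn k⟩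

theorem lintegral_om {F : V → ℝ≥0∞} (hF : Measurable F) :
    ∫⁻ p, F p ∂Om = ∫⁻ k : E3, ENNReal.ofReal (2 * ‖k‖)⁻¹ * F (cn k) := by
  unfold Om wm
  rw [lintegral_map hF measurable_cn]
  exact lintegral_withDensity_eq_lintegral_mul _ measurable_dens (hF.comp measurable_cn)

/-- The spatial part. -/
def sp (p : V) : E3 := WithLp.toLp 2 fun i => p i.succ

@[simp] theorem sp_apply (p : V) (i : Fin 3) : sp p i = p i.succ := rfl

@[simp] theorem sp_cn (k : E3) : sp (cn k) = k := rfl

theorem continuous_sp : Continuous sp := by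
  unfold sp; fun_prop

theorem cn_emb : MeasurableEmbedding cn :=
  (Topology.IsClosedEmbedding.of_continuous_injective_isClosedMap continuous_cn
    (fun a b h => by simpa using congrArg sp h)
    (Function.LeftInverse.isClosedEmbedding sp_cn continuous_sp continuous_cn).isClosedMap
    ).measurableEmbedding

instance : SigmaFinite Om := cn_emb.sigmaFinite_map

theorem integral_om (F : V → ℂ) :
    ∫ p, F p ∂Om = ∫ k : E3, (((2 * ‖k‖)⁻¹ : ℝ) : ℂ) * F (cn k) := by
  unfold Om wm
  rw [cn_emb.integral_map, integral_withDensity_eq_integral_toReal_smul measurable_dens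
    (ae_of_all _ fun _ => ENNReal.ofReal_lt_top)]
  refine integral_congr_ae (ae_of_all _ fun k => ?_)
  simp only
  rw [ENNReal.toReal_ofReal (by positivity), Complex.real_smul]

theorem integrable_om {G : Type*} [NormedAddCommGroup G] [NormedSpace ℝ G] (F : V → G) :
    Integrable F Om ↔ Integrable fun k : E3 => ((2 * ‖k‖)⁻¹ : ℝ) • F (cn k) := by
  unfold Om wm
  rw [cn_emb.integrable_map_iff, integrable_withDensity_iff_integrable_smul' measurable_dens
    (ae_of_all _ fun _ => ENNReal.ofReal_lt_top)]
  refine integrable_congr (ae_of_all _ fun k => ?_)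
  simp only [Function.comp]
  rw [ENNReal.toReal_ofReal (by positivity)]

/-- A point of the cone is `cn` of its spatial part. -/
theorem cn_sp {p : V} (h0 : 0 ≤ p o) (h : mdot p p = 0) : cn (sp p) = p := by
  funext m
  refine Fin.cases ?_ (fun i => rfl) m
  change ‖sp p‖ = p o
  rw [mdot_eq] at h
  have h2 : ‖sp p‖ ^ 2 = p o ^ 2 := by
    rw [norm_sq_e3]; simp only [sp_apply]; linarith
  exact (pow_left_inj₀ (norm_nonneg _) h0 two_ne_zero).1 h2

/-- Functions of the energy: `∫ F (p⁰) dOm < ∞` iff `∫ r F(r) dr < ∞`. -/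
theorem integrable_om_rad (F : ℝ → ℝ) :
    Integrable (fun p : V => F (p o)) Om ↔ IntegrableOn (fun r => r * F r) (Set.Ioi 0) := by
  rw [integrable_om]
  have h := integrable_fun_norm_addHaar (volume : Measure E3)
    (f := fun r : ℝ => ((2 * r)⁻¹ : ℝ) • F r)
  simp only [cn_o]
  rw [h]
  have h2 : IntegrableOn (fun r => r * F r) (Set.Ioi 0) ↔
      IntegrableOn (fun r => 2⁻¹ * (r * F r)) (Set.Ioi 0) :=
    (integrable_const_mul_iff (by simp : IsUnit (2⁻¹ : ℝ)) _).symm
  rw [h2]
  refine integrableOn_congr_fun (fun r hr => ?_) measurableSet_Ioi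
  have hr' : r ≠ 0 := ne_of_gt hr
  simp only [finrank_euclideanSpace, Fintype.card_fin, smul_eq_mul]
  field_simp

/-- `(1 + p⁰)^(-r)` is integrable for `r > 2`. -/
theorem om_int_rpow {r : ℝ} (hr : 2 < r) : Integrable (fun p : V => (1 + p o) ^ (-r)) Om := by
  rw [integrable_om_rad fun t => (1 + t) ^ (-r)]
  have h := integrableOn_add_rpow_Ioi_of_lt (a := 1 - r) (c := 0) (m := 1) (by linarith)
    (by norm_num)
  refine h.mono' (by fun_prop) ?_
  filter_upwards [ae_restrict_mem measurableSet_Ioi] with t ht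
  have ht0 : (0 : ℝ) < t := ht
  rw [Real.norm_of_nonneg (by positivity), add_comm t 1, sub_eq_add_neg,
    Real.rpow_add (by positivity), Real.rpow_one]
  gcongr
  linarith

/-- `((1 + p⁰)^N)⁻¹` is integrable for `N ≥ 3`. -/
theorem om_int {N : ℕ} (hN : 3 ≤ N) : Integrable (fun p : V => ((1 + p o) ^ N)⁻¹) Om := by
  have hN' : (2 : ℝ) < N := by exact_mod_cast hN
  refine (om_int_rpow hN').congr ?_
  filter_upwards [om_ae] with p hp
  rw [Real.rpow_neg (by linarith [hp.1]), Real.rpow_natCast]

/-- On the cone the (sup) norm is the energy. -/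
theorem norm_cn (k : E3) : ‖cn k‖ = ‖k‖ := by
  refine le_antisymm ((pi_norm_le_iff_of_nonneg (norm_nonneg _)).2 fun m => ?_) ?_
  · refine Fin.cases ?_ (fun i => ?_) m
    · exact (norm_norm k).le
    · exact PiLp.norm_apply_le k i
  · simpa using norm_le_pi_norm (cn k) o

theorem om_norm : ∀ᵐ p ∂Om, ‖p‖ = p o := by
  filter_upwards [om_ae] with p hp
  rw [← cn_sp hp.1.le hp.2, norm_cn, cn_o]

/-- A measurable function with decay `(1 + ‖p‖)^(-3)` is integrable on the cone. -/
theorem integrable_om_of_le {G : Type*} [NormedAddCommGroup G] {F : V → G} {C : ℝ} {N : ℕ}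
    (hN : 3 ≤ N) (hF : AEStronglyMeasurable F Om) (h : ∀ p, ‖F p‖ ≤ C * ((1 + ‖p‖) ^ N)⁻¹) :
    Integrable F Om := by
  refine ((om_int hN).const_mul C).mono' hF ?_
  filter_upwards [om_norm] with p hp
  rw [← hp]; exact h p

end

end Vale.Agent.P352W.Cn
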