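import Vale.Agent.P352W.Cn.Defs

/-!
# P352W CN — the Pauli–Jordan identity from the kernel formula

`WF` is the formula for the regularised two point kernel; from it, the commutator function
vanishes at spacelike separation, for all Schwartz functions.
-/

open MeasureTheory Filter Topology
open scoped Real
open Complex (I)

namespace Vale.Agent.P352W.Cn

open Vale.Agent.P352.GF

noncomputable section

/-- The regularised two point kernel. -/
def wk (ε : ℝ) (x : V) : ℂ := -2 * π / ((x o + I * ε) ^ 2 - (‖sp x‖ : ℂ) ^ 2)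

/-- The kernel formula. -/
def WF : Prop := ∀ ε : ℝ, 0 < ε → ∀ x : V,
  ∫ p, Complex.exp (I * mdot p x - ε * p o) ∂Om = wk ε x

theorem mdot_neg_left (p x : V) : mdot (-p) x = -mdot p x := by
  simp [mdot, Finset.sum_neg_distrib]

theorem mdot_neg_right (p x : V) : mdot p (-x) = -mdot p x := by
  simp [mdot, Finset.sum_neg_distrib]

theorem mdot_add_right (p x y : V) : mdot p (x + y) = mdot p x + mdot p y := by
  simp [mdot, mul_add, Finset.sum_add_distrib]

theorem mdot_self (z : V) : mdot z z = z o ^ 2 - ‖sp z‖ ^ 2 := by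
  rw [mdot_eq, norm_sq_e3]; simp only [sp_apply]; ring

theorem norm_exp_mdot (p x : V) : ‖Complex.exp (I * mdot p x)‖ = 1 := by
  rw [mul_comm]; exact Complex.norm_exp_ofReal_mul_I _

theorem sp_neg (z : V) : sp (-z) = -sp z := rfl

theorem norm_wk {ε : ℝ} {z : V} (hz : mdot z z < 0) : ‖wk ε z‖ ≤ 2 * π / (-mdot z z) := by
  have h : -mdot z z ≤ ‖((z o : ℂ) + I * ε) ^ 2 - (‖sp z‖ : ℂ) ^ 2‖ := by
    refine le_trans ?_ ((neg_le_abs _).trans (Complex.abs_re_le_norm _))
    have : (((z o : ℂ) + I * ε) ^ 2 - (‖sp z‖ : ℂ) ^ 2).re = z o ^ 2 - ε ^ 2 - ‖sp z‖ ^ 2 := by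
      simp [sq]
    rw [this, mdot_self]
    nlinarith [sq_nonneg ε]
  have h2 : ‖(-2 * π : ℂ)‖ = 2 * π := by simp [abs_of_pos Real.pi_pos]
  rw [wk, norm_div, h2]
  gcongr
  linarith

theorem tendsto_wk {z : V} (hz : mdot z z < 0) :
    Tendsto (fun ε => wk ε z - wk ε (-z)) (𝓝 0) (𝓝 0) := by
  have h : ∀ z : V, mdot z z < 0 → ContinuousAt (fun ε => wk ε z) 0 := by
    intro z hz
    refine continuousAt_const.div (by fun_prop) ?_
    rw [mdot_self] at hz
    simp only [Complex.ofReal_zero, mul_zero, add_zero]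
    exact_mod_cast hz.ne
  have h2 : wk 0 z - wk 0 (-z) = 0 := by simp [wk, sp_neg]
  have := (h z hz).sub (h (-z) (by rwa [mdot_neg_left, mdot_neg_right, neg_neg]))
  rw [← h2]
  exact this

theorem norm_sp_le (y : V) : ‖sp y‖ ≤ 2 * ‖y‖ := by
  have h : ∀ i : Fin 3, y i.succ * y i.succ ≤ ‖y‖ ^ 2 := fun i => by
    have := norm_le_pi_norm y i.succ
    rw [Real.norm_eq_abs] at this
    nlinarith [abs_nonneg (y i.succ), abs_mul_abs_self (y i.succ)]
  have h2 := norm_sq_e3 (sp y)
  simp only [sp_apply, Fin.sum_univ_three] at h2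
  refine abs_le_of_sq_le_sq' ?_ (by positivity) |>.2
  nlinarith [h 0, h 1, h 2, sq_nonneg ‖y‖]

theorem norm_le_sp {z : V} (h : |z o| ≤ ‖sp z‖) : ‖z‖ ≤ ‖sp z‖ := by
  refine (pi_norm_le_iff_of_nonneg (norm_nonneg _)).2 fun m => ?_
  refine Fin.cases h (fun i => ?_) m
  exact PiLp.norm_apply_le (sp z) i

/-- A Schwartz function that vanishes on the closed cone, divided by the interval. -/
theorem quot_bound (k : Sch) (hk : ∀ z, 0 ≤ mdot z z → k z = 0) : ∃ C : ℝ, 0 ≤ C ∧ ∀ z : V,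
    mdot z z < 0 → ‖k z‖ / (-mdot z z) ≤ C * (((1 + ‖z‖) ^ 4)⁻¹ * ‖z‖⁻¹) := by
  obtain ⟨C, hC⟩ : ∃ C : ℝ, ∀ y : V, (1 + ‖y‖) ^ 4 * ‖fderiv ℝ k y‖ ≤ C :=
    ⟨_, fun y => by
      rw [← norm_iteratedFDeriv_one]
      exact SchwartzMap.one_add_le_sup_seminorm_apply (𝕜 := ℝ) (m := (4, 1)) le_rfl le_rfl k y⟩
  have hC0 : 0 ≤ C := le_trans (by positivity) (hC 0)
  refine ⟨16 * C, by positivity, fun z hz => ?_⟩
  have hz' := hz
  rw [mdot_self] at hz'
  have hr : |z o| < ‖sp z‖ := abs_lt_of_sq_lt_sq (by linarith) (norm_nonneg _)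
  have hzr := norm_le_sp hr.le
  have hz0 : 0 < ‖z‖ := norm_pos_iff.2 fun h => by simp [h, mdot] at hz
  obtain ⟨t, ht, ht2⟩ : ∃ t : ℝ, t ^ 2 = ‖sp z‖ ^ 2 ∧ |z o - t| ≤ ‖sp z‖ - |z o| := by
    rcases le_total 0 (z o) with h | h
    · rw [abs_of_nonneg h] at hr ⊢
      exact ⟨‖sp z‖, rfl, by rw [abs_of_nonpos (by linarith)]; linarith⟩
    · rw [abs_of_nonpos h] at hr ⊢
      exact ⟨-‖sp z‖, by ring, by rw [abs_of_nonneg (by linarith)]; linarith⟩
  let z' : V := Fin.cons t fun i => z i.succ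
  have hs : Convex ℝ {y : V | sp y = sp z} := by
    intro a ha b hb u v _ _ huv
    ext i
    have h1 : a i.succ = z i.succ := congrArg (fun k : E3 => k i) ha
    have h2 : b i.succ = z i.succ := congrArg (fun k : E3 => k i) hb
    simp only [sp_apply, Pi.add_apply, Pi.smul_apply, smul_eq_mul, h1, h2]
    rw [← add_mul, huv, one_mul]
  have hmv := hs.norm_image_sub_le_of_norm_fderiv_le (𝕜 := ℝ) (f := k)
    (C := 16 * C * ((1 + ‖z‖) ^ 4)⁻¹) (x := z') (y := z) (fun x _ => k.differentiableAt)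
    (fun y hy => by
      have h1 : ‖z‖ ≤ 2 * ‖y‖ := by
        have h := norm_sp_le y
        rw [show sp y = sp z from hy] at h
        exact hzr.trans h
      have h2 : (1 + ‖z‖) ^ 4 ≤ (2 * (1 + ‖y‖)) ^ 4 := by gcongr; linarith
      rw [← div_eq_mul_inv, le_div_iff₀ (by positivity)]
      nlinarith [hC y, norm_nonneg (fderiv ℝ k y)]) rfl rfl
  have h0 : k z' = 0 := hk _ (by
    rw [mdot_self]
    change 0 ≤ t ^ 2 - ‖sp z‖ ^ 2
    linarith)
  have hd : ‖z - z'‖ ≤ ‖sp z‖ - |z o| := by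
    refine (pi_norm_le_iff_of_nonneg (by linarith)).2 fun m => ?_
    refine Fin.cases ht2 (fun i => ?_) m
    simp only [z', Pi.sub_apply, Fin.cons_succ, sub_self, norm_zero]
    linarith
  rw [h0, sub_zero] at hmv
  have hσ : (‖sp z‖ - |z o|) * ‖z‖ ≤ -mdot z z := by
    rw [mdot_self, ← sq_abs (z o)]
    nlinarith [abs_nonneg (z o)]
  rw [div_le_iff₀ (by linarith)]
  calc ‖k z‖ ≤ 16 * C * ((1 + ‖z‖) ^ 4)⁻¹ * (‖sp z‖ - |z o|) := hmv.trans (by gcongr)
    _ = 16 * C * (((1 + ‖z‖) ^ 4)⁻¹ * ‖z‖⁻¹) * ((‖sp z‖ - |z o|) * ‖z‖) := by field_simp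
    _ ≤ _ := by gcongr

theorem int_quot : Integrable fun z : V => ((1 + ‖z‖) ^ 4)⁻¹ * ‖z‖⁻¹ := by
  rw [integrable_fun_norm_addHaar (volume : Measure V) (f := fun r : ℝ => ((1 + r) ^ 4)⁻¹ * r⁻¹)]
  have h := integrableOn_add_rpow_Ioi_of_lt (a := -2) (c := 0) (m := 1) (by norm_num)
    (by norm_num)
  refine h.mono' (by fun_prop) ?_
  filter_upwards [ae_restrict_mem measurableSet_Ioi] with t ht
  have ht0 : (0 : ℝ) < t := ht
  simp only [Module.finrank_fintype_fun_eq_card, Fintype.card_fin, smul_eq_mul]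
  rw [Real.norm_of_nonneg (by positivity), Real.rpow_neg (by positivity), Real.rpow_two,
    add_comm t 1]
  have : t ^ (4 - 1) * (((1 + t) ^ 4)⁻¹ * t⁻¹) = (t / (1 + t)) ^ 2 * ((1 + t) ^ 2)⁻¹ := by
    field_simp
  rw [this]
  refine mul_le_of_le_one_left (by positivity) (pow_le_one₀ (by positivity) ?_)
  rw [div_le_one (by positivity)]
  linarith

theorem int_exp {ε : ℝ} (hε : 0 < ε) : Integrable (fun p : V => Real.exp (-(ε * p o))) Om := by
  rw [integrable_om_rad fun r => Real.exp (-(ε * r))]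
  have h := integrableOn_rpow_mul_exp_neg_mul_rpow (s := 1) (p := 1) (by norm_num) one_pos hε
  simpa using h

theorem exp_split (p x : V) (ε : ℝ) : Complex.exp (I * mdot p x - ε * p o) =
    Complex.exp (I * mdot p x) * (Real.exp (-(ε * p o)) : ℝ) := by
  rw [sub_eq_add_neg, Complex.exp_add]; simp

/-- Fubini for the regularised pairing. -/
theorem reg_eq (hW : WF) {k : Fn} (hk : Integrable k) {ε : ℝ} (hε : 0 < ε) {c : V → V}
    (hc : Continuous c) {d : V → V} (hd : ∀ p z, mdot (d p) z = mdot p (c z)) :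
    ∫ p, ft k (d p) * (Real.exp (-(ε * p o)) : ℝ) ∂Om = ∫ z, k z * wk ε (c z) := by
  have h1 : ∀ p, ft k (d p) * (Real.exp (-(ε * p o)) : ℝ) =
      ∫ z, k z * Complex.exp (I * mdot p (c z) - ε * p o) := fun p => by
    simp only [ft, exp_split, hd, ← mul_assoc, integral_mul_const]
  simp only [h1, ← hW ε hε, ← integral_const_mul]
  refine integral_integral_swap ?_
  refine ((int_exp hε).mul_prod hk.norm).mono' ?_ (ae_of_all _ fun z => ?_)
  · refine hk.1.comp_snd.mul (Continuous.aestronglyMeasurable ?_)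
    unfold mdot
    fun_prop
  · simp only [Function.uncurry, exp_split, norm_mul, norm_exp_mdot, Complex.norm_real,
      Real.norm_of_nonneg (Real.exp_pos _).le, one_mul]
    rw [mul_comm]

theorem meas_wk (ε : ℝ) : Measurable (wk ε) := by
  have := continuous_sp
  unfold wk
  fun_prop

/-- The commutator function annihilates Schwartz functions that vanish on the closed cone. -/
theorem core (hW : WF) (k : Sch) (hk : ∀ z, 0 ≤ mdot z z → k z = 0) (h1 : Integrable (ft k) Om)
    (h2 : Integrable (fun q => ft k (-q)) Om) : ∫ q, (ft k q - ft k (-q)) ∂Om = 0 := by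
  obtain ⟨C, hC0, hC⟩ := quot_bound k hk
  let e : ℕ → ℝ := fun n => 1 / ((n : ℝ) + 1)
  have he : ∀ n, 0 < e n := fun n => Nat.one_div_pos_of_nat
  have he0 : Tendsto e atTop (𝓝 0) := tendsto_one_div_add_atTop_nhds_zero_nat
  have hb : ∀ n, ∀ᵐ p ∂Om, ‖((Real.exp (-(e n * p o)) : ℝ) : ℂ)‖ ≤ 1 := fun n => by
    filter_upwards [om_ae] with p hp
    rw [Complex.norm_real, Real.norm_of_nonneg (Real.exp_pos _).le, Real.exp_le_one_iff]
    nlinarith [he n, hp.1]
  have hm : ∀ n, AEStronglyMeasurable (fun p : V => ((Real.exp (-(e n * p o)) : ℝ) : ℂ)) Om :=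
    fun n => Continuous.aestronglyMeasurable (by fun_prop)
  have hA : Tendsto (fun n => ∫ q, (ft k q - ft k (-q)) * (Real.exp (-(e n * q o)) : ℝ) ∂Om) atTop
      (𝓝 (∫ q, (ft k q - ft k (-q)) ∂Om)) := by
    refine tendsto_integral_of_dominated_convergence _ (fun n => (h1.sub h2).1.mul (hm n))
      (h1.sub h2).norm (fun n => ?_) (ae_of_all _ fun q => ?_)
    · filter_upwards [hb n] with q hq
      rw [norm_mul]
      exact mul_le_of_le_one_right (norm_nonneg _) hq
    · have hc : Continuous fun ε : ℝ => (ft k q - ft k (-q)) * (Real.exp (-(ε * q o)) : ℝ) := by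
        fun_prop
      simpa [Function.comp_def] using (hc.tendsto 0).comp he0
  have hbd : ∀ (ε : ℝ) (z : V), ‖k z * wk ε z‖ ≤ 2 * π * C * (((1 + ‖z‖) ^ 4)⁻¹ * ‖z‖⁻¹) ∧
      ‖k z * wk ε (-z)‖ ≤ 2 * π * C * (((1 + ‖z‖) ^ 4)⁻¹ * ‖z‖⁻¹) := fun ε z => by
    rcases le_or_gt 0 (mdot z z) with hz | hz
    · simp only [hk z hz, zero_mul, norm_zero, and_self]
      positivity
    · have h : ∀ w : ℂ, ‖w‖ ≤ 2 * π / (-mdot z z) →
          ‖k z * w‖ ≤ 2 * π * C * (((1 + ‖z‖) ^ 4)⁻¹ * ‖z‖⁻¹) := fun w hw =>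
        calc ‖k z * w‖ ≤ ‖k z‖ * (2 * π / (-mdot z z)) := by rw [norm_mul]; gcongr
          _ = 2 * π * (‖k z‖ / (-mdot z z)) := by ring
          _ ≤ 2 * π * (C * (((1 + ‖z‖) ^ 4)⁻¹ * ‖z‖⁻¹)) := by gcongr; exact hC z hz
          _ = _ := by ring
      have hn : mdot (-z) (-z) = mdot z z := by rw [mdot_neg_left, mdot_neg_right, neg_neg]
      exact ⟨h _ (norm_wk hz), h _ (hn ▸ norm_wk (hn ▸ hz))⟩
  have hi : ∀ ε : ℝ, Integrable (fun z => k z * wk ε z) ∧ Integrable fun z => k z * wk ε (-z) :=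
    fun ε => ⟨(int_quot.const_mul _).mono' (k.continuous.aestronglyMeasurable.mul
      (meas_wk ε).aestronglyMeasurable) (ae_of_all _ fun z => (hbd ε z).1),
      (int_quot.const_mul _).mono' (k.continuous.aestronglyMeasurable.mul
      ((meas_wk ε).comp measurable_neg).aestronglyMeasurable) (ae_of_all _ fun z => (hbd ε z).2)⟩
  have hB : Tendsto (fun n => ∫ z, (k z * wk (e n) z - k z * wk (e n) (-z))) atTop
      (𝓝 (∫ _ : V, (0 : ℂ))) := by
    refine tendsto_integral_of_dominated_convergence _ (fun n => ((hi _).1.sub (hi _).2).1)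
      ((int_quot.const_mul _).add (int_quot.const_mul _)) (fun n => ae_of_all _ fun z =>
        (norm_sub_le _ _).trans (add_le_add (hbd _ z).1 (hbd _ z).2)) (ae_of_all _ fun z => ?_)
    rcases le_or_gt 0 (mdot z z) with hz | hz
    · simp [hk z hz]
    · simpa [mul_sub] using ((tendsto_wk hz).comp he0).const_mul (k z)
  rw [integral_zero] at hB
  refine tendsto_nhds_unique hA (hB.congr fun n => ?_)
  rw [integral_sub (hi _).1 (hi _).2]
  simp only [sub_mul]
  rw [integral_sub (h1.mul_bdd (hm n) (hb n)) (h2.mul_bdd (hm n) (hb n))]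
  congr 1
  · exact (reg_eq hW k.integrable (he n) continuous_id (d := id) fun _ _ => rfl).symm
  · exact (reg_eq hW k.integrable (he n) continuous_neg (d := fun p => -p) fun p z => by
      rw [mdot_neg_left, mdot_neg_right]).symm

theorem ft_shift (g : Fn) (x q : V) :
    ft (fun z => g (z + x)) q = ft g q * Complex.exp (I * mdot (-q) x) := by
  rw [ft, ft, ← integral_mul_const, ← integral_add_right_eq_self
    (fun y => g y * Complex.exp (I * mdot q y) * Complex.exp (I * mdot (-q) x)) x]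
  refine integral_congr_ae (ae_of_all _ fun z => ?_)
  simp only [mul_assoc, ← Complex.exp_add, mdot_add_right, mdot_neg_left]
  congr 2
  push_cast
  ring

theorem meas_exp (c : V → V) (hc : Continuous c) (x : V) :
    AEStronglyMeasurable (fun q => Complex.exp (I * mdot (c q) x)) Om := by
  refine Continuous.aestronglyMeasurable ?_
  unfold mdot
  fun_prop

/-- Pointwise form. -/
theorem pj_pt0 (hW : WF) {g : Fn} (hg : IsTest g) (h1 : Integrable (ft g) Om)
    (h2 : Integrable (fun q => ft g (-q)) Om) {x : V}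
    (h : ∀ y ∈ tsupport g, mdot (x - y) (x - y) < 0) :
    ∫ q, (ft g q * Complex.exp (I * mdot (-q) x) - ft g (-q) * Complex.exp (I * mdot q x)) ∂Om
      = 0 := by
  obtain ⟨G, rfl⟩ := hg
  have hk : ((G.compSubConstCLM ℂ (-x) : Sch) : V → ℂ) = fun z => ev G (z + x) := by
    funext z; simp [ev]
  have := core hW (G.compSubConstCLM ℂ (-x)) (fun z hz => ?_) ?_ ?_
  · simpa only [hk, ft_shift, neg_neg] using this
  · rw [hk]
    by_contra h0
    have h3 := h _ (subset_tsupport _ h0)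
    rw [show x - (z + x) = -z by abel, mdot_neg_left, mdot_neg_right, neg_neg] at h3
    linarith
  · rw [hk, funext (ft_shift _ x)]
    exact h1.mul_bdd (meas_exp _ continuous_neg x) (ae_of_all _ fun q => (norm_exp_mdot _ _).le)
  · simp only [hk, ft_shift, neg_neg]
    exact h2.mul_bdd (meas_exp _ continuous_id x) (ae_of_all _ fun q => (norm_exp_mdot _ _).le)

theorem int_prod {f u : Fn} (hf : Integrable f) (hu : Integrable u Om) {c : V → V}
    (hc : Continuous c) : Integrable (fun z : V × V =>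
      f z.2 * (u z.1 * Complex.exp (I * mdot (c z.1) z.2))) (Om.prod volume) := by
  refine (hu.norm.mul_prod hf.norm).mono' (hf.1.comp_snd.mul (hu.1.comp_fst.mul
    (Continuous.aestronglyMeasurable ?_))) (ae_of_all _ fun z => ?_)
  · unfold mdot
    fun_prop
  · simp only [norm_mul, norm_exp_mdot, mul_one]
    rw [mul_comm]

theorem ft_mul_eq (f : Fn) (p : V) (a : ℂ) :
    ft f p * a = ∫ x, f x * (a * Complex.exp (I * mdot p x)) := by
  rw [ft, ← integral_mul_const]
  exact integral_congr_ae (ae_of_all _ fun x => by ring)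

/-- The commutator pairing is the integral of `f` against the solution of the wave equation. -/
theorem pair_eq {f g : Fn} (hf : Integrable f) (h1 : Integrable (ft g) Om)
    (h2 : Integrable (fun q => ft g (-q)) Om) :
    ∫ p, ft f (-p) * ft g p ∂Om - ∫ p, ft f p * ft g (-p) ∂Om = ∫ x, f x *
      ∫ q, (ft g q * Complex.exp (I * mdot (-q) x) - ft g (-q) * Complex.exp (I * mdot q x))
        ∂Om := by
  have i1 := int_prod hf h1 continuous_neg
  have i2 := int_prod hf h2 continuous_id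
  simp only [ft_mul_eq f, ← integral_const_mul, mul_sub]
  refine (integral_sub i1.integral_prod_left i2.integral_prod_left).symm.trans
    (Eq.trans ?_ (integral_integral_swap (i1.sub i2)))
  refine integral_congr_ae ?_
  filter_upwards [i1.prod_right_ae, i2.prod_right_ae] with p a b
  exact (integral_sub a b).symm

/-- Smeared form. -/
theorem pj0 (hW : WF) {f g : Fn} (hf : IsTest f) (hg : IsTest g) (h1 : Integrable (ft g) Om)
    (h2 : Integrable (fun q => ft g (-q)) Om) (h : Sep f g) :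
    ∫ p, ft f (-p) * ft g p ∂Om = ∫ p, ft f p * ft g (-p) ∂Om := by
  have hi : Integrable f := by obtain ⟨F, rfl⟩ := hf; exact F.integrable
  rw [← sub_eq_zero, pair_eq hi h1 h2]
  refine integral_eq_zero_of_ae (ae_of_all _ fun x => ?_)
  by_cases hx : f x = 0
  · simp [hx]
  · simp only [Pi.zero_apply]
    rw [pj_pt0 hW hg h1 h2 fun y hy => h x (subset_tsupport _ hx) y hy, mul_zero]

end

end Vale.Agent.P352W.Cn
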